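import Vale.Agent.P011.D4Y.H547.PartD
import Vale.Agent.P011.D4Y.H659.BaseP
import Vale.Agent.P011.D4Y.H408.NearI

/-!
Block D4Y: the parts of the same class in the centralisers of two involutions.
-/

open NumberField Topology Filter

set_option linter.unusedSectionVars false

namespace Vale.Agent.P011.D4Y

open Vale.Agent.P011.MPQ Vale.Agent.P011.D4 Vale.Agent.P011.D4.Oct Vale.Agent.P011.E6
open Vale.Agent.P011.D4X

variable {k L E : Type} [Field k] [NumberField k] [Field L] [NumberField L] [Field E]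
  [Algebra k L] [Algebra k E] [Algebra L E]
  [IsScalarTower k L E] [NeZero (2 : E)] {ρ σ ι : E ≃ₐ[k] E} {α : E}
  {a b c : kˣ} {q : Lˣ}

theorem Part.stabsPI_le {P : Subgroup Lˣ} :
    stabsPI P ρ σ ι α a b c q ≤ stabsI ρ σ ι α a b c q := by
  rw [stabsPI, Subgroup.closure_le]
  rintro z ⟨-, hz⟩
  exact Subgroup.subset_closure hz

/-- The planes of the stable singular elements near the standard one. -/
theorem Part.near (H : HyI ρ σ ι α a b c q) :
    ∀ᶠ v in nh (Bd ρ σ q) (ep α * oup E gl : OctL E a b c), Pt ρ v →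
      (∃ μ : E, Im ι v = μ • v) → ∃ y ∈ stabsI ρ σ ι α a b c q, ∃ t : E, t ≠ 0 ∧
        y.1 (tri ρ v (Jm ρ σ α q v)) = t • ep α := by
  have hP : ∀ κ : Lˣ, (∀ w : L →+* ℝ, w (algebraMap k L a) < 0 → 0 < w (κ : L)) →
      κ ∈ (⊤ : Subgroup Lˣ) := fun _ _ => Subgroup.mem_top _
  have h := H408.near_genI H (P := H659.PPI ⊤ ρ σ ι α q) (fun t ht v hv => H659.PPI_smul ht hv)
    (fun z b' c' j l h hz hκ v hv => H659.act_near z b' c' j l h hz hκ v hv)
    (fun v v' h1 h2 h3 h4 h5 h6 h7 => H659.step_near H hP v v' h1 h2 h3 h4 h5 h6 h7)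
    (H659.base_PPI H hP)
  filter_upwards [h] with v hv hpt hI
  obtain ⟨y, hy, t, ht, hyt⟩ := hv hpt hI
  exact ⟨y, Part.stabsPI_le hy, t, ht, hyt⟩

/-- **The parts.** -/
theorem part (H : HyI ρ σ ι α a b c q)
    (hX : ∀ τ : k →+* ℝ, τ a < 0 → τ b < 0 ∧ τ c < 0) (ho : HOdd a q)
    {b' c' : kˣ} {j l : Oct a b c} (h : Trip a b' c' gi j l) {D : k}
    (hD : GoodD a b q D) (hD' : GoodD a b' q D) (hns : ∀ e : E, e * e ≠ algebraMap k E D)
    {x y : L} (κ : Lˣ) (hκ : (κ : L) = x ^ 2 - algebraMap k L D * y ^ 2) :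
    ∃ w w' : ATI ρ σ ι α a b c q, w ∈ stab0I ρ σ ι α a b c q ∧ w' ∈ stabI ρ σ ι α q h ∧
      IsKapI ρ w.1 κ ∧ IsKapI ρ w'.1 κ ∧ IsNI ρ σ ι α a b c q (w * w'⁻¹) :=
  part_of_near (fun _ _ _ _ _ _ _ _ _ _ _ _ _ _ H1 => Part.near H1) H hX ho h hD hD' hns κ hκ

end Vale.Agent.P011.D4Y
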