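import Vale.Agent.P011.D4Y.Defs
import Vale.Agent.P011.D4Y.H547.Shape
import Vale.Agent.P011.D4X.H657.Bas

/-!
The similitudes which commute with the standard involution: row CENT.
-/

set_option linter.unusedSectionVars false

open NumberField

namespace Vale.Agent.P011.D4Y

open Vale.Agent.P011.MPQ Vale.Agent.P011.D4 Vale.Agent.P011.D4.Oct Vale.Agent.P011.E6
open Vale.Agent.P011.D4X Vale.Agent.P011.D4X.H547 Vale.Agent.P011.D4Y.H547

section

variable {k L E : Type} [Field k] [Field L] [Field E] [Algebra k L] [Algebra k E] [Algebra L E]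
  [IsScalarTower k L E] {ρ σ ι : E ≃ₐ[k] E} {α : E} {a b c : kˣ} {q : Lˣ}
  (H : HyI ρ σ ι α a b c q)

include H

namespace H547

theorem exists_l {e : E} (h1 : σ e = e) (h2 : ρ (ι e) = e) : ∃ t : L, algebraMap L E t = e := by
  refine H.fixL e h1 ?_
  nth_rewrite 2 [← h2]
  rw [H.ρ3]

theorem exists_qup {Y : Qt (up E a) (up E b)} (h1 : qmap σ Y = Y) (h2 : qmap ρ Y = Y)
    (h3 : qmap ι Y = Y) : ∃ x0 : Qt a b, qup E x0 = Y := by
  obtain ⟨p0, e0⟩ := H.fixk _ (congrArg QuaternionAlgebra.re h2)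
    (congrArg QuaternionAlgebra.re h1) (congrArg QuaternionAlgebra.re h3)
  obtain ⟨p1, e1⟩ := H.fixk _ (congrArg QuaternionAlgebra.imI h2)
    (congrArg QuaternionAlgebra.imI h1) (congrArg QuaternionAlgebra.imI h3)
  obtain ⟨p2, e2⟩ := H.fixk _ (congrArg QuaternionAlgebra.imJ h2)
    (congrArg QuaternionAlgebra.imJ h1) (congrArg QuaternionAlgebra.imJ h3)
  obtain ⟨p3, e3⟩ := H.fixk _ (congrArg QuaternionAlgebra.imK h2)
    (congrArg QuaternionAlgebra.imK h1) (congrArg QuaternionAlgebra.imK h3)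
  exact ⟨⟨p0, p1, p2, p3⟩, QuaternionAlgebra.ext e0 e1 e2 e3⟩

variable [NeZero (2 : E)]

theorem psiL_eqI (x : Qt (up L a) (q * up L b)) : (psiL α q x : Qt (up E a) (up E b)) =
    mk4 (up E a) (up E b) α (algebraMap L E x.re + algebraMap L E x.imI * α)
      (algebraMap L E x.re - algebraMap L E x.imI * α)
      (algebraMap L E (q : L) * (algebraMap L E x.imJ + algebraMap L E x.imK * α))
      (algebraMap L E x.imJ - algebraMap L E x.imK * α) := by
  have h0 := al_ne (a := up E a) H.α2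
  have h2 : (2 : E) ≠ 0 := NeZero.ne _
  ext
  · simp only [psiL, mk4]
    field_simp
    ring
  · simp only [psiL, mk4]
    field_simp
    ring
  · rfl
  · rfl

theorem nrd_psiLI (x : Qt (up L a) (q * up L b)) :
    nrd (psiL α q x : Qt (up E a) (up E b)) = algebraMap L E (nrd x) := by
  have hα := H.α2
  have ha : algebraMap L E (algebraMap k L (a : k)) = α * α := by
    rw [hα, ← IsScalarTower.algebraMap_apply]
  have hb : algebraMap L E (algebraMap k L (b : k)) = algebraMap k E (b : k) := by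
    rw [← IsScalarTower.algebraMap_apply]
  have e1 : ((up L a : Lˣ) : L) = algebraMap k L (a : k) := rfl
  have e2 : ((q * up L b : Lˣ) : L) = (q : L) * algebraMap k L (b : k) := rfl
  have e3 : ((up E b : Eˣ) : E) = algebraMap k E (b : k) := rfl
  rw [psiL_eqI H, nrd_mk4 hα]
  simp only [nrd, map_add, map_sub, map_mul, map_pow, e1, e2, e3, ha, hb]
  ring

/-- The image of `Q₁`. -/
theorem exists_psiLI {x : Qt (up E a) (up E b)}
    (hx : mq a b α (algebraMap L E q) * qmap σ x = x * mq a b α (algebraMap L E q))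
    (hi : qmap ρ (qmap ι x) = x) : ∃ y : Qt (up L a) (q * up L b), psiL α q y = x := by
  have h0 := al_ne (a := up E a) H.α2
  have h2' : (2 : E) ≠ 0 := NeZero.ne _
  have i1 : ρ (ι x.re) = x.re := congrArg QuaternionAlgebra.re hi
  have i2 : ρ (ι x.imI) = x.imI := congrArg QuaternionAlgebra.imI hi
  have i3 : ρ (ι x.imJ) = x.imJ := congrArg QuaternionAlgebra.imJ hi
  have i4 : ρ (ι x.imK) = x.imK := congrArg QuaternionAlgebra.imK hi
  have iα : ρ (ι α) = α := by rw [H.ια, H.ρα]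
  have g1 : ρ (ι (x.re + x.imI * α)) = x.re + x.imI * α := by
    rw [map_add, map_add, map_mul, map_mul, i1, i2, iα]
  have g2 : ρ (ι (x.re - x.imI * α)) = x.re - x.imI * α := by
    rw [map_sub, map_sub, map_mul, map_mul, i1, i2, iα]
  have g3 : ρ (ι (x.imJ + x.imK * α)) = x.imJ + x.imK * α := by
    rw [map_add, map_add, map_mul, map_mul, i3, i4, iα]
  have g4 : ρ (ι (x.imJ - x.imK * α)) = x.imJ - x.imK * α := by
    rw [map_sub, map_sub, map_mul, map_mul, i3, i4, iα]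
  clear i1 i2 i3 i4 hi
  rw [mk4_surj (a := up E a) H.α2 x] at hx ⊢
  generalize x.re + x.imI * α = s at *
  generalize x.re - x.imI * α = s' at *
  generalize x.imJ + x.imK * α = T at *
  generalize x.imJ - x.imK * α = T' at *
  rw [qmap_mk4' H.σα, mq_eq, mk4_mul (a := up E a) H.α2, mk4_mul (a := up E a) H.α2] at hx
  obtain ⟨e1, e2, e3, e4⟩ := mk4_inj (a := up E a) H.α2 hx
  have h1 : σ s = s' := by linear_combination e2
  have h3 : T = algebraMap L E (q : L) * σ T' := by linear_combination -e3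
  have hσι : ∀ y, ρ (ι y) = y → ρ (ι (σ y)) = σ y := by
    intro y hy
    rw [← H.σι, ← H.comm, hy]
  obtain ⟨u, hu⟩ := exists_l H (e := (s + s') / 2) (by
    rw [map_div₀, map_add, h1, ← h1, H.σ2, map_ofNat, add_comm]) (by
    rw [map_div₀, map_div₀, map_add, map_add, g1, g2, map_ofNat, map_ofNat])
  obtain ⟨v, hv⟩ := exists_l H (e := (s - s') / (2 * α)) (by
    rw [map_div₀, map_sub, ← h1, H.σ2, map_mul, map_ofNat, H.σα, mul_neg, div_neg, ← neg_div,
      neg_sub]) (by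
    rw [map_div₀, map_div₀, map_sub, map_sub, g1, g2, map_mul, map_mul, map_ofNat, map_ofNat, iα])
  obtain ⟨w, hw⟩ := exists_l H (e := (σ T' + T') / 2) (by
    rw [map_div₀, map_add, H.σ2, map_ofNat, add_comm]) (by
    rw [map_div₀, map_div₀, map_add, map_add, hσι T' g4, g4, map_ofNat, map_ofNat])
  obtain ⟨z, hz⟩ := exists_l H (e := (σ T' - T') / (2 * α)) (by
    rw [map_div₀, map_sub, H.σ2, map_mul, map_ofNat, H.σα, mul_neg, div_neg, ← neg_div,
      neg_sub]) (by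
    rw [map_div₀, map_div₀, map_sub, map_sub, hσι T' g4, g4, map_mul, map_mul, map_ofNat,
      map_ofNat, iα])
  refine ⟨⟨u, v, w, z⟩, ?_⟩
  rw [psiL_eqI H]
  simp only [hu, hv, hw, hz]
  rw [h3]
  congr 1
  all_goals
    field_simp
    try ring

end H547

/-- The similitudes which commute with the standard involution. -/
theorem cent [NeZero (2 : E)] {z : ATI ρ σ ι α a b c q} (hz : z ∈ stab0I ρ σ ι α a b c q) :
    ∃ (x0 : Qt a b) (x : Qt (up L a) (q * up L b)) (s : kˣ) (l : Lˣ),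
      algebraMap k E (nrd x0) * (algebraMap L E (nrd x) * ρ (algebraMap L E (nrd x)) *
        ρ (ρ (algebraMap L E (nrd x)))) = algebraMap k E ((s : k) ^ 2) ∧
      ∀ y, z.1 y = ρ (algebraMap L E (l : L)) • zFI ρ α q x0 x s y := by
  obtain ⟨Z, ⟨κ, hκ⟩, hZJ, hZI⟩ := z
  have hZ : ∀ x, Z (tt x) = tt (Z x) := hz
  obtain ⟨t, ht⟩ : ∃ t, t = algebraMap L E (q : L) := ⟨_, rfl⟩
  have hN : t * ρ t * ρ (ρ t) = 1 := by
    rw [ht]
    exact H.hq
  have hσt : σ t = t := by rw [ht]; exact H.σL _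
  have hιt : ι t = ρ (ρ t) := by rw [ht]; exact H.ιL _
  have hιne : ∃ y, σ y = y ∧ ι y ≠ y := by
    obtain ⟨u, hu⟩ := H.ρL
    refine ⟨algebraMap L E u, H.σL u, fun h => hu ?_⟩
    rw [H.ιL] at h
    have h1 := congrArg ρ h
    rw [H.ρ3] at h1
    exact h1.symm
  have hJf' : ∀ y : Qt (up E a) (up E b), Jm ρ σ α q (⟨y, 0⟩ : OctL E a b c) =
      ⟨mq a b α t * qmap σ y * mq a b α (t * ρ t), 0⟩ := by
    intro y
    rw [ht]
    apply Oct.ext
    · rfl
    · change qmap σ (0 : Qt (up E a) (up E b)) * _ = 0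
      rw [qmap_zero, zero_mul]
  have hJs' : ∀ y : Qt (up E a) (up E b), Jm ρ σ α q (⟨0, y⟩ : OctL E a b c) =
      ⟨0, qmap σ y * (mq a b α t * star (mq a b α (t * ρ t)))⟩ := by
    intro y
    rw [ht]
    apply Oct.ext
    · change _ * qmap σ (0 : Qt (up E a) (up E b)) * _ = 0
      rw [qmap_zero, mul_zero, zero_mul]
    · rfl
  have hf0 : ∀ y : Qt (up E a) (up E b), Z ⟨y, 0⟩ = ⟨(Z ⟨y, 0⟩).fst, 0⟩ := fun y =>
    Oct.ext rfl (snd_eq_zero hZ y)
  have hs0 : ∀ y : Qt (up E a) (up E b), Z ⟨0, y⟩ = ⟨0, (Z ⟨0, y⟩).snd⟩ := fun y =>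
    Oct.ext (fst_eq_zero hZ y) rfl
  have hIs : ∀ x : OctL E a b c, star (omap ι x) = Im ι x := by
    intro x
    apply Oct.ext
    · exact (qmap_star ι x.fst).symm
    · change -qmap ι x.snd = qmap ι (-x.snd)
      rw [qmap_neg]
  obtain ⟨X, Y, n, hX0, hn0, hσn, hιn, hXm, hXd, hRY, hSY, hιY, hYn, hkn, hZf⟩ :=
    shapeI H.ρ3 H.σ2 H.comm H.α2 H.ρα H.σα hσt hN H.ιρ H.ι2 (fun x => (H.σι x).symm) H.ια hιt hιne
      Z hZ hκ (fun y => by rw [← hJf', hZJ, hf0 y, hJf']) (fun y => by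
        rw [← hJs', hZJ, hs0 y, hJs']) (fun x => by rw [hIs, hZI, hIs])
  obtain ⟨x, rfl⟩ := H547.exists_psiLI H (x := X) (by rw [← ht]; exact hXm) hXd
  obtain ⟨x0, rfl⟩ := H547.exists_qup H hSY hRY hιY
  have hιρρ : ι (ρ (ρ n)) = ρ n := by
    rw [H.ιρ, H.ιρ, H.ρ3, hιn]
  obtain ⟨l, hl⟩ := H.fixL (ρ (ρ n)) (by rw [H.comm, H.comm, hσn]) (by
    rw [hιρρ, H.ρ3])
  have hl' : ρ (algebraMap L E l) = n := by rw [hl, H.ρ3]
  have hl0 : l ≠ 0 := by
    rintro rfl
    rw [map_zero, map_zero] at hl'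
    exact hn0 hl'.symm
  refine ⟨x0, x, 1, Units.mk0 l hl0, ?_, fun y => ?_⟩
  · rw [H547.nrd_psiLI H, nrd_qup] at hYn
    rw [hYn, Units.val_one, one_pow, map_one]
  · change Z y = _
    rw [hZf]
    apply Oct.ext
    · change _ = ρ (algebraMap L E l) • (psiL α q x * y.fst * star (qmap ρ (qmap ρ (psiL α q x))))
      rw [qmap_star, qmap_star, hl']
    · change _ = ρ (algebraMap L E l) • ((algebraMap L E (nrd x) * ρ (ρ (algebraMap L E (nrd x))) /
        algebraMap k E ((1 : kˣ) : k)) • (qup E x0 * y.snd * star (qmap ρ (psiL α q x))))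
      rw [qmap_star, smul_smul, H547.nrd_psiLI H, Units.val_one, map_one, div_one, hl',
        ← mul_assoc n]

end

end Vale.Agent.P011.D4Y
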