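import Vale.Agent.P011.D4Y.H553.Tow
import Vale.Agent.P011.D4Y.H657.KCrL
import Vale.Agent.P011.D4X.H64.KCr

/-!
Block D4Y: the change of the quadratic field: the new parameters satisfy the hypotheses of the
model (no condition at the noncompact real places).
-/

set_option linter.unusedSectionVars false

open NumberField

namespace Vale.Agent.P011.D4Y

open Vale.Agent.P011.MPQ Vale.Agent.P011.D4 Vale.Agent.P011.D4.Oct Vale.Agent.P011.E6
open Vale.Agent.P011.D4X

section main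

variable {k L E : Type} [Field k] [NumberField k] [Field L] [NumberField L] [Field E]
  [Algebra k L] [Algebra k E]
  [Algebra L E] [IsScalarTower k L E] {ρ σ ι : E ≃ₐ[k] E} {α : E} {a b c : kˣ} {q : Lˣ}
  (H : HyI ρ σ ι α a b c q)
  {a1 : kˣ} {E1 O : Type} [Field E1] [Field O] [NumberField O] [Algebra k E1] [Algebra L E1]
  [Algebra k O] [Algebra L O] [Algebra E O] [Algebra E1 O] [IsScalarTower k L O]
  [IsScalarTower L E O]
  [IsScalarTower L E1 O] [IsScalarTower k E O] [IsScalarTower k E1 O]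
  {ρ1 σ1 ι1 : E1 ≃ₐ[k] E1} {α1 : E1} {ρ' σ' τ' ι' : O ≃ₐ[k] O}
  (T : TowI (L := L) ρ σ ι (a1 : k) ρ1 σ1 ι1 α1 ρ' σ' τ' ι')

include H T

/-- **KCr**: the new parameters satisfy the hypotheses of the model. -/
theorem hy_newI (hDs : ∀ τ : k →+* ℝ, τ (a1 : k) < 0 → τ (a : k) < 0)
    (hDw : ∃ w : Qt a b, w.re = 0 ∧ w * w = (a1 : k) • 1)
    {b1 c1 : kˣ} {q1 : O} (hN : H67.N3 ρ' q1 = 1) (hσq1 : σ' q1 = q1) (hτq1 : τ' q1 = q1)
    (hιq1 : ι' q1 = ρ' (ρ' q1)) (u : OctL O a1 b1 c1 ≃ₗ[O] OctL O a b c) {f s t : O}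
    (hbil : ∀ x y, bil (u x) (u y) = f * bil x y)
    (hJ : ∀ x, Jq σ' (algebraMap E O α) (algebraMap L O q) (ρ' (algebraMap L O q)) (u x) =
      s • u (omap σ' x))
    (hT : ∀ x, omap τ' (u x) = t • u (Jq τ' (algebraMap E1 O α1) q1 (ρ' q1) x))
    (hI : ∀ x, omap ι' (star (u x)) = u (omap ι' (star x)))
    {lam v : O} (hlam0 : lam ≠ 0) (hv0 : v ≠ 0) (hlam : lam * σ' lam = algebraMap L O (q : L))
    (hrel : τ' lam * σ' v = lam * v) (hq1v : q1 = v * τ' v) :
    ∃ qL : Lˣ, algebraMap L O (qL : L) = q1 ∧ HyI ρ1 σ1 ι1 α1 a1 b1 c1 qL := by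
  have h2 : NeZero (2 : O) := ⟨two_ne_zero⟩
  obtain ⟨y, hy⟩ := T.fixτ q1 hτq1
  obtain ⟨r, hr'⟩ := H.fixL y (by
    apply (algebraMap E O).injective
    rw [← T.σE, hy, hσq1]) (by
    apply (algebraMap E O).injective
    rw [← T.ιE, ← T.ρE, ← T.ρE, hy, hιq1])
  have hr : algebraMap L O r = q1 := by
    rw [IsScalarTower.algebraMap_apply L E O, hr', hy]
  have hr0 : r ≠ 0 := by
    rintro rfl
    rw [map_zero] at hr
    rw [← hr, H67.N3, zero_mul, zero_mul] at hN
    exact zero_ne_one hN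
  have hE1 : algebraMap E1 O (algebraMap L E1 r) = q1 := by
    rw [← IsScalarTower.algebraMap_apply, hr]
  -- the signs at the compact places
  have signs : ∀ w : L →+* ℝ, w (algebraMap k L a1) < 0 →
      (∀ v : L →+* ℝ, v.comp (algebraMap k L) = w.comp (algebraMap k L) → 0 < v (q : L)) →
      w (algebraMap k L b1) < 0 ∧ w (algebraMap k L c1) < 0 ∧ 0 < w r := by
    intro w hw1 hwv
    obtain ⟨hb, hc⟩ := H.hre (w.comp (algebraMap k L)) (hDs _ hw1) hwv
    exact signsL H T hN hσq1 hr u hbil hJ hT hI (hDs (w.comp (algebraMap k L)) hw1) hw1 hb hc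
      hwv
  have hsame : ∀ w : L →+* ℝ, w (algebraMap k L a1) < 0 → 0 < w (q : L) * w r := fun w hw1 =>
    sign_q1I H T (hDs (w.comp (algebraMap k L)) hw1) hw1 hN hr hlam0 hv0 hlam hrel hq1v
  have hreN : ∀ τ : k →+* ℝ, τ a1 < 0 →
      (∀ w : L →+* ℝ, w.comp (algebraMap k L) = τ → 0 < w r) → τ b1 < 0 ∧ τ c1 < 0 := by
    intro τ h1 hq
    obtain ⟨w, hw⟩ := E6I.exists_real_over (L := L) H.h3 τ
    have hwτ : w.comp (algebraMap k L) = τ := hw
    subst hwτ
    have hqv : ∀ v : L →+* ℝ, v.comp (algebraMap k L) = w.comp (algebraMap k L) →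
        0 < v (q : L) := fun v hv => by
      have hv1 : v (algebraMap k L a1) < 0 := by
        have h := congrArg (fun f : k →+* ℝ => f a1) hv
        change v (algebraMap k L a1) = w (algebraMap k L a1) at h
        rw [h]
        exact h1
      exact (pos_iff_pos_of_mul_pos (hsame v hv1)).2 (hq v hv)
    obtain ⟨s1, s2, -⟩ := signs w h1 hqv
    exact ⟨s1, s2⟩
  -- a compact place
  obtain ⟨τ, ha, hq⟩ := H.hcp
  obtain ⟨hb, hc⟩ := H.hre τ ha hq
  have h1 : τ (a1 : k) < 0 := by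
    obtain ⟨w, hw0, hw⟩ := hDw
    have e := congrArg QuaternionAlgebra.re hw
    simp only [QuaternionAlgebra.re_mul, hw0, QuaternionAlgebra.re_smul,
      QuaternionAlgebra.re_one, smul_eq_mul, mul_one] at e
    have e' := congrArg τ e
    simp only [map_add, map_sub, map_mul, map_zero] at e'
    have hne : τ (a1 : k) ≠ 0 := (map_ne_zero τ).mpr a1.ne_zero
    refine lt_of_le_of_ne ?_ hne
    have t1 : 0 ≤ (-τ a) * (τ w.imI * τ w.imI) :=
      mul_nonneg (neg_pos.2 ha).le (mul_self_nonneg _)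
    have t2 : 0 ≤ (-τ b) * (τ w.imJ * τ w.imJ) :=
      mul_nonneg (neg_pos.2 hb).le (mul_self_nonneg _)
    have t3 : 0 ≤ (-τ a) * (-τ b) * (τ w.imK * τ w.imK) :=
      mul_nonneg (mul_pos (neg_pos.2 ha) (neg_pos.2 hb)).le (mul_self_nonneg _)
    linarith
  have hcpN : ∀ w : L →+* ℝ, w.comp (algebraMap k L) = τ → 0 < w r := by
    intro w hw
    have hw1 : w (algebraMap k L a1) < 0 := by
      have h := congrArg (fun f : k →+* ℝ => f a1) hw
      change w (algebraMap k L a1) = τ a1 at h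
      rw [h]
      exact h1
    exact (signs w hw1 fun v hv => hq v (hv.trans hw)).2.2
  obtain ⟨n1, n2⟩ := hreN τ h1 hcpN
  exact ⟨Units.mk0 r hr0, hr,
    { h3 := H.h3
      ρL := T.ρ1L
      ρ3 := T.ρ13
      σ2 := T.σ12
      ι2 := T.ι12
      comm := T.comm1
      σι := T.σι1
      ιρ := T.ιρ1
      σL := T.σ1L
      ιL := T.ι1L
      fixL := T.fixL1
      fixk := T.fixk1
      α2 := T.α12
      ρα := T.ρα1
      σα := T.σα1
      ια := T.ια1
      hq := by
        apply (algebraMap E1 O).injective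
        change algebraMap E1 O (algebraMap L E1 r * ρ1 (algebraMap L E1 r) *
          ρ1 (ρ1 (algebraMap L E1 r))) = _
        rw [map_mul, map_mul, ← T.ρE1, ← T.ρE1, ← T.ρE1, hE1, map_one]
        exact hN
      hdiv := division_of_neg τ h1 n1 n2
      hcp := ⟨τ, h1, hcpN⟩
      hre := hreN }⟩

end main

end Vale.Agent.P011.D4Y
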