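import Vale.Agent.P011.D4Y.H63.PartA
import Vale.Agent.P011.D4Y.H69.Z5

/-!
Block D4Y: the parts of the same class in the centralisers of two involutions.
-/

open NumberField Topology

set_option linter.unusedSectionVars false

namespace Vale.Agent.P011.D4Y

open Vale.Agent.P011.MPQ Vale.Agent.P011.D4 Vale.Agent.P011.D4.Oct Vale.Agent.P011.E6
open Vale.Agent.P011.D4X Vale.Agent.P011.D4X.H62 Vale.Agent.P011.D4Y.H62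

section core

variable {k L E E1 O : Type} [Field k] [Field L] [Field E] [Field E1] [Field O] [Algebra k L]
  [Algebra k E] [Algebra L E] [Algebra k E1] [Algebra L E1] [Algebra k O] [Algebra L O]
  [Algebra E O] [Algebra E1 O] [IsScalarTower k L E] [IsScalarTower k L E1]
  [IsScalarTower k E O] [IsScalarTower k E1 O]
  [NeZero (2 : k)] [NeZero (2 : E)] [NeZero (2 : E1)] [NeZero (2 : O)]
  {ρ σ ι : E ≃ₐ[k] E} {ρ1 σ1 ι1 : E1 ≃ₐ[k] E1} {ρ' σ' τ' ι' : O ≃ₐ[k] O} {α : E} {α1 : E1}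
  {a b c a1 b1 c1 : kˣ} {q q1 : Lˣ} {u : OctL O a1 b1 c1 ≃ₗ[O] OctL O a b c} {b' c' : kˣ}
  {j l : Oct a b c}

/-- The element of the central torus of a norm from `L(√a₁)`. -/
theorem Part.exists_norm (H1 : HyI ρ1 σ1 ι1 α1 a1 b1 c1 q1) {D : k} (ha1 : (a1 : k) = D)
    {x y : L} {κ : Lˣ} (hκ : (κ : L) = x ^ 2 - algebraMap k L D * y ^ 2) :
    ∃ e : E1, e ≠ 0 ∧ ι1 e = ρ1 (ρ1 e) ∧ e * σ1 e = algebraMap L E1 (κ : L) := by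
  have he : (algebraMap L E1 x + algebraMap L E1 y * α1) *
      σ1 (algebraMap L E1 x + algebraMap L E1 y * α1) = algebraMap L E1 (κ : L) := by
    rw [map_add, map_mul, H1.σL, H1.σL, H1.σα, hκ]
    simp only [map_sub, map_mul, map_pow]
    rw [← IsScalarTower.algebraMap_apply, ← ha1, ← H1.α2]
    ring
  refine ⟨algebraMap L E1 x + algebraMap L E1 y * α1, fun h0 => ?_, ?_, he⟩
  · rw [h0, zero_mul] at he
    exact κ.ne_zero ((map_eq_zero (algebraMap L E1)).1 he.symm)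
  · simp only [map_add, map_mul, H1.ιL, H1.ια, H1.ρα]

/-- **The parts**, from a change of the quadratic field. -/
theorem Part.core (H : HyI ρ σ ι α a b c q) (H1 : HyI ρ1 σ1 ι1 α1 a1 b1 c1 q1)
    (K : KCHI ρ σ ι ρ1 σ1 ι1 ρ' σ' τ' ι' α α1 q q1 u) (σ2 : ∀ t, σ' (σ' t) = t)
    {φ : ATI ρ σ ι α a b c q ≃* ATI ρ1 σ1 ι1 α1 a1 b1 c1 q1}
    (eqv : ∀ (z : ATI ρ σ ι α a b c q) (Z : OctL O a b c ≃ₗ[O] OctL O a b c), IsBc O z.1 Z →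
      ∀ x : OctL E1 a1 b1 c1, u (oin O ((φ z).1 x)) = Z (u (oin O x)))
    (kp : ∀ (z : ATI ρ σ ι α a b c q) (κ : Lˣ), IsKapI ρ z.1 κ ↔ IsKapI ρ1 (φ z).1 κ)
    (st0 : ∀ z : ATI ρ σ ι α a b c q, z ∈ stab0I ρ σ ι α a b c q ↔
      φ z ∈ stab0I ρ1 σ1 ι1 α1 a1 b1 c1 q1)
    (hgen : ∀ v : OctL E1 a1 b1 c1, Pt ρ1 v → (∃ μ : E1, Im ι1 v = μ • v) →
      ∃ y ∈ stabsI ρ1 σ1 ι1 α1 a1 b1 c1 q1, ∃ t : E1,
      t ≠ 0 ∧ y.1 (tri ρ1 v (Jm ρ1 σ1 α1 q1 v)) = t • ep α1)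
    (hstab : ∀ {b' c' : kˣ} {j l : Oct a1 b1 c1} (h : Trip a1 b' c' gi j l)
      {z : ATI ρ1 σ1 ι1 α1 a1 b1 c1 q1}, z ∈ stabI ρ1 σ1 ι1 α1 q1 h → kapI z = 1 →
      IsNI ρ1 σ1 ι1 α1 a1 b1 c1 q1 z)
    (htor : ∀ e : E1, e ≠ 0 → ι1 e = ρ1 (ρ1 e) →
      ∃ (z : ATI ρ1 σ1 ι1 α1 a1 b1 c1 q1) (κ : Lˣ), IsKapI ρ1 z.1 κ ∧
      algebraMap L E1 (κ : L) = e * σ1 e ∧
      ∀ {b' c' : kˣ} {j l : Oct a1 b1 c1} (h : Trip a1 b' c' gi j l), z ∈ stabI ρ1 σ1 ι1 α1 q1 h)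
    (h : Trip a b' c' gi j l) {D : k} (ha1 : (a1 : k) = D)
    {w : Qt a b'} (hw0 : w.re = 0) (hw : w * w = D • (1 : Qt a b')) {x y : L} (κ : Lˣ)
    (hκ : (κ : L) = x ^ 2 - algebraMap k L D * y ^ 2) :
    ∃ w w' : ATI ρ σ ι α a b c q, w ∈ stab0I ρ σ ι α a b c q ∧ w' ∈ stabI ρ σ ι α q h ∧
      IsKapI ρ w.1 κ ∧ IsKapI ρ w'.1 κ ∧ IsNI ρ σ ι α a b c q (w * w'⁻¹) := by
  obtain ⟨y', hy', b2, c2, j1, l1, h1, hy1⟩ := z5_KI H H1 K σ2 φ eqv kp hgen h hw0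
    (by rw [ha1]; exact hw)
  obtain ⟨e, he0, hι, he⟩ := Part.exists_norm H1 ha1 hκ
  obtain ⟨z, κ', hz1, hz2, hz3⟩ := htor e he0 hι
  have e1 : κ' = κ := by
    apply Units.ext
    apply (algebraMap L E1).injective
    rw [hz2, he]
  rw [e1] at hz1
  exact Part.of_iso H1 kp st0 hstab h hy' h1 (fun z hz => z5I_stab hy1 hz) hz1 hz3

end core

end Vale.Agent.P011.D4Y
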