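import Vale.Agent.P011.D4Y.H547.PartB
import Vale.Agent.P011.D4Y.H63.Kcx
import Vale.Agent.P011.D4Y.H657.Tor
import Vale.Agent.P011.D4X.H547.PartB

/-!
Block D4Y: the parts of the same class: transport along an element of the finite residual, the
embeddings over the noncompact places, the parts from one conjugation in the model of the new
quadratic field.
-/

open NumberField Topology Filter
open scoped ComplexConjugate

set_option linter.unusedSectionVars false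

namespace Vale.Agent.P011.D4Y

open Vale.Agent.P011.MPQ Vale.Agent.P011.D4 Vale.Agent.P011.D4.Oct Vale.Agent.P011.E6
open Vale.Agent.P011.D4X

section move

variable {k L E : Type} [Field k] [Field L] [Field E]
  [Algebra k L] [Algebra k E] [Algebra L E]
  [IsScalarTower k L E] [NeZero (2 : E)] {ρ σ ι : E ≃ₐ[k] E} {α : E}
  {a b c : kˣ} {q : Lˣ} (H : HyI ρ σ ι α a b c q)

include H

/-- The parts are transported along an element of the finite residual. -/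
theorem Part.move {b' c' b'' c'' : kˣ} {j l j'' l'' : Oct a b c} (h : Trip a b' c' gi j l)
    (h'' : Trip a b'' c'' gi j'' l'') {n : OctL E a b c ≃ₗ[E] OctL E a b c}
    (hn : n ∈ RsI ρ σ ι α a b c q) (hc : n * tQ E h * n⁻¹ = tQ E h'') {κ : Lˣ}
    (hp : ∃ w w' : ATI ρ σ ι α a b c q, w ∈ stab0I ρ σ ι α a b c q ∧ w' ∈ stabI ρ σ ι α q h'' ∧
      IsKapI ρ w.1 κ ∧ IsKapI ρ w'.1 κ ∧ IsNI ρ σ ι α a b c q (w * w'⁻¹)) :
    ∃ w w' : ATI ρ σ ι α a b c q, w ∈ stab0I ρ σ ι α a b c q ∧ w' ∈ stabI ρ σ ι α q h ∧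
      IsKapI ρ w.1 κ ∧ IsKapI ρ w'.1 κ ∧ IsNI ρ σ ι α a b c q (w * w'⁻¹) := by
  obtain ⟨w, w2, hw, hw2, hk, hk2, hN⟩ := hp
  obtain ⟨nA, rfl⟩ : ∃ nA : ATI ρ σ ι α a b c q, nA.1 = n :=
    ⟨⟨n, GTI_le_ATI (RsI_le hn)⟩, rfl⟩
  have hnN : nA ∈ H.NA := ⟨1, nA.1, hn, fun x => by
    rw [Units.val_one, map_one, map_one, one_smul]⟩
  have hkn : kapI nA = 1 := kapI_of_GTI (RsI_le hn)
  refine ⟨w, nA⁻¹ * w2 * nA, hw, ?_, hk, ?_, ?_⟩
  · change nA.1⁻¹ * w2.1 * nA.1 * tQ E h = tQ E h * (nA.1⁻¹ * w2.1 * nA.1)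
    have h1 : w2.1 * tQ E h'' = tQ E h'' * w2.1 := hw2
    rw [← hc] at h1
    calc nA.1⁻¹ * w2.1 * nA.1 * tQ E h
        = nA.1⁻¹ * (w2.1 * (nA.1 * tQ E h * nA.1⁻¹)) * nA.1 := by group
      _ = nA.1⁻¹ * (nA.1 * tQ E h * nA.1⁻¹ * w2.1) * nA.1 := by rw [h1]
      _ = tQ E h * (nA.1⁻¹ * w2.1 * nA.1) := by group
  · have e2 : kapI (nA⁻¹ * w2 * nA) = κ := by
      rw [kapI_mul, kapI_mul, kapI_inv, hkn, inv_one, one_mul, mul_one, kapI_eq hk2]
    rw [← e2]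
    exact isKapI_kapI _
  · have e3 : w * (nA⁻¹ * w2 * nA)⁻¹ = (w * w2⁻¹) * (w2 * nA⁻¹ * w2⁻¹) * nA := by group
    rw [e3]
    exact H.NA.mul_mem (H.NA.mul_mem hN
      ((HyI.NA_normal H).conj_mem _ (H.NA.inv_mem hnN) w2)) hnN

end move

section places

variable {k L : Type} [Field k] [Field L] [Algebra k L]

/-- The real places of `k` where `a` is negative. -/
def Part.S (k : Type) [Field k] (a : kˣ) : Set (k →+* ℝ) := {τ | τ (a : k) < 0}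

/-- The same places, as complex embeddings. -/
def Part.Sk (k : Type) [Field k] (a : kˣ) : Set (k →+* ℂ) :=
  {τ | ∃ τ' ∈ Part.S k a, Complex.ofRealHom.comp τ' = τ}

theorem Part.Sk_finite [NumberField k] (a : kˣ) : (Part.Sk k a).Finite :=
  ((Set.toFinite (Part.S k a)).image fun τ' => Complex.ofRealHom.comp τ').subset (by
    rintro τ ⟨τ', h, rfl⟩
    exact ⟨τ', h, rfl⟩)

variable {E1 : Type} [Field E1] [Algebra k E1] [Algebra L E1] [IsScalarTower k L E1]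
  {ρ1 σ1 ι1 : E1 ≃ₐ[k] E1} {α1 : E1} {a a1 b1 c1 : kˣ} {q1 : Lˣ}

theorem Part.real_sub (hσL : ∀ t : L, σ1 (algebraMap L E1 t) = algebraMap L E1 t)
    (hσα : σ1 α1 = -α1) (hα2 : α1 * α1 = algebraMap k E1 a1)
    (hs : ∀ τ : k →+* ℝ, τ (a1 : k) < 0 → τ (a : k) < 0) {W : E1 →+* ℂ}
    (h1 : ∀ x, W (σ1 x) = conj (W x)) : W.comp (algebraMap k E1) ∈ Part.Sk k a := by
  have h2 : ComplexEmbedding.IsReal (W.comp (algebraMap L E1)) := by
    rw [ComplexEmbedding.isReal_iff]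
    apply RingHom.ext
    intro t
    rw [ComplexEmbedding.conjugate_coe_eq]
    change conj (W (algebraMap L E1 t)) = W (algebraMap L E1 t)
    rw [← h1, hσL]
  have h3 : ∀ t : L, ((h2.embedding t : ℝ) : ℂ) = W (algebraMap L E1 t) := fun t =>
    h2.coe_embedding_apply t
  have h4 : (W α1).re = 0 := by
    have h5 := h1 α1
    rw [hσα, map_neg] at h5
    have h6 := congrArg Complex.re h5
    rw [Complex.neg_re, Complex.conj_re] at h6
    linarith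
  have h5 : W α1 ≠ 0 := by
    rw [map_ne_zero]
    intro h0
    have h6 := hα2
    rw [h0, mul_zero] at h6
    exact a1.ne_zero ((map_eq_zero (algebraMap k E1)).1 h6.symm)
  have h6 : h2.embedding (algebraMap k L (a1 : k)) = -((W α1).im ^ 2) := by
    have h7 := congrArg Complex.re (h3 (algebraMap k L (a1 : k)))
    rw [Complex.ofReal_re, ← IsScalarTower.algebraMap_apply, ← hα2, map_mul, Complex.mul_re, h4]
      at h7
    rw [h7]
    ring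
  have h7 : (W α1).im ≠ 0 := fun h0 => h5 (Complex.ext h4 h0)
  refine ⟨h2.embedding.comp (algebraMap k L), ?_, ?_⟩
  · apply hs
    change h2.embedding (algebraMap k L (a1 : k)) < 0
    rw [h6]
    have := sq_pos_of_ne_zero h7
    linarith
  · apply RingHom.ext
    intro t
    change ((h2.embedding (algebraMap k L t) : ℝ) : ℂ) = W (algebraMap k E1 t)
    rw [h3, ← IsScalarTower.algebraMap_apply]

theorem Part.Bd_sub (H1 : HyI ρ1 σ1 ι1 α1 a1 b1 c1 q1)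
    (hs : ∀ τ : k →+* ℝ, τ (a1 : k) < 0 → τ (a : k) < 0) :
    Bd ρ1 σ1 q1 ⊆ {W | W.comp (algebraMap k E1) ∈ Part.Sk k a} := by
  rintro W ⟨h1, -⟩
  exact Part.real_sub (L := L) H1.σL H1.σα H1.α2 hs h1

end places

section core

variable {k L E E1 O : Type} [Field k] [NumberField k] [Field L] [NumberField L] [Field E]
  [Field E1] [Field O] [Algebra k L]
  [Algebra k E] [Algebra L E] [Algebra k E1] [Algebra L E1] [Algebra k O] [Algebra L O]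
  [Algebra E O] [Algebra E1 O] [IsScalarTower k L E] [IsScalarTower k L E1]
  [IsScalarTower k L O]
  [IsScalarTower k E O] [IsScalarTower k E1 O] [IsScalarTower L E O] [IsScalarTower L E1 O]
  [NeZero (2 : E)] [NeZero (2 : E1)]
  {a b c a1 b1 c1 : kˣ} {q : Lˣ}
  {ρ σ ι : E ≃ₐ[k] E} {α : E} {D : k} {w0 : Qt a b}
  {w : Qt (up L a) (q * up L b)} {ρ1 σ1 ι1 : E1 ≃ₐ[k] E1} {α1 : E1} {ρ' σ' τ' ι' : O ≃ₐ[k] O}
  {q1 : Lˣ} {u : OctL O a1 b1 c1 ≃ₗ[O] OctL O a b c}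
  {φ : ATI ρ σ ι α a b c q ≃* ATI ρ1 σ1 ι1 α1 a1 b1 c1 q1}

/-- The parts, from one conjugation in the new model. -/
theorem Part.core1 (X : KCXI ρ σ ι α D w0 w ρ1 σ1 ι1 α1 ρ' σ' τ' ι' q1 u φ)
    (hN : ∀ {b' c' : kˣ} {j l : Oct a1 b1 c1} (h : Trip a1 b' c' gi j l)
      {z : ATI ρ1 σ1 ι1 α1 a1 b1 c1 q1}, z ∈ stabI ρ1 σ1 ι1 α1 q1 h → kapI z = 1 →
      IsNI ρ1 σ1 ι1 α1 a1 b1 c1 q1 z)
    {b' c' : kˣ} {j l : Oct a b c} (h : Trip a b' c' gi j l)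
    {y' : ATI ρ1 σ1 ι1 α1 a1 b1 c1 q1} (hy' : y' ∈ stabsI ρ1 σ1 ι1 α1 a1 b1 c1 q1) {b2 c2 : kˣ}
    {j1 l1 : Oct a1 b1 c1} {h1 : Trip a1 b2 c2 gi j1 l1}
    (hy1 : y' * φ (tATI ρ σ ι α q h) * y'⁻¹ = tATI ρ1 σ1 ι1 α1 q1 h1) {x y : L} (κ : Lˣ)
    (hκ : (κ : L) = x ^ 2 - algebraMap k L D * y ^ 2) :
    ∃ w w' : ATI ρ σ ι α a b c q, w ∈ stab0I ρ σ ι α a b c q ∧ w' ∈ stabI ρ σ ι α q h ∧
      IsKapI ρ w.1 κ ∧ IsKapI ρ w'.1 κ ∧ IsNI ρ σ ι α a b c q (w * w'⁻¹) := by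
  obtain ⟨e, he0, hι, he⟩ := Part.exists_norm X.H1 X.ha1 hκ
  obtain ⟨z, κ', hz1, hz2, hz3⟩ := exists_tor X.H1 e he0 hι
  have e1 : κ' = κ := by
    apply Units.ext
    apply (algebraMap L E1).injective
    rw [hz2, he]
  rw [e1] at hz1
  exact Part.of_iso X.H1 X.kp X.st0 hN h hy' h1 (fun z hz => z5I_stab hy1 hz) hz1 hz3

end core

end Vale.Agent.P011.D4Y
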