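import Vale.Agent.P011.D4Y.H547.PartC
import Vale.Agent.P011.D4Y.H63.SingXI
import Vale.Agent.P011.D4Y.H370.TripConjI
import Vale.Agent.P011.D4X.H370.TripConj
import Vale.Agent.P011.D4Y.H691.StabOf
import Vale.Agent.P011.D4Y.H63.Mix

/-!
Block D4Y: the parts of the same class in the centralisers of two involutions, from the planes of
the singular elements near the standard one.
-/

open NumberField Topology Filter

set_option linter.unusedSectionVars false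

namespace Vale.Agent.P011.D4Y

open Vale.Agent.P011.MPQ Vale.Agent.P011.D4 Vale.Agent.P011.D4.Oct Vale.Agent.P011.E6
open Vale.Agent.P011.D4X

variable {k L E : Type} [Field k] [NumberField k] [Field L] [NumberField L] [Field E]
  [Algebra k L] [Algebra k E] [Algebra L E]
  [IsScalarTower k L E] [NeZero (2 : E)] {ρ σ ι : E ≃ₐ[k] E} {α : E}
  {a b c : kˣ} {q : Lˣ}

/-- The elements of class one in a centraliser. -/
theorem Part.stab_NF (H : HyI ρ σ ι α a b c q) (ho : HOdd a q) {b' c' : kˣ} {j l : Oct a b c}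
    (h : Trip a b' c' gi j l) {z : ATI ρ σ ι α a b c q} (hz : z ∈ stabI ρ σ ι α q h) {κ : Lˣ}
    (hκ : IsKapI ρ z.1 κ) (hcl : κ ∈ SqL k L) : IsNI ρ σ ι α a b c q z :=
  stab_NI_of H h (fun _ _ _ h0 h1 _ hg => H63.mix_mem (hyTripI H h) ho h0 h1 hg) hz hκ hcl

/-- **The parts**, from the planes of the singular elements near the standard one. -/
theorem part_of_near
    (hnear : ∀ (E1 : Type) [Field E1] [NumberField E1] [Algebra k E1] [Algebra L E1]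
      [IsScalarTower k L E1] (ρ1 σ1 ι1 : E1 ≃ₐ[k] E1) (α1 : E1) (a1 b1 c1 : kˣ)
      (q1 : Lˣ), HyI ρ1 σ1 ι1 α1 a1 b1 c1 q1 →
      ∀ᶠ v in nh (Bd ρ1 σ1 q1) (ep α1 * oup E1 gl : OctL E1 a1 b1 c1), Pt ρ1 v →
        (∃ μ : E1, Im ι1 v = μ • v) → ∃ y ∈ stabsI ρ1 σ1 ι1 α1 a1 b1 c1 q1, ∃ t : E1, t ≠ 0 ∧
          y.1 (tri ρ1 v (Jm ρ1 σ1 α1 q1 v)) = t • ep α1)
    (H : HyI ρ σ ι α a b c q)
    (hX : ∀ τ : k →+* ℝ, τ a < 0 → τ b < 0 ∧ τ c < 0) (ho : HOdd a q)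
    {b' c' : kˣ} {j l : Oct a b c} (h : Trip a b' c' gi j l) {D : k}
    (hD : GoodD a b q D) (hD' : GoodD a b' q D) (hns : ∀ e : E, e * e ≠ algebraMap k E D)
    {x y : L} (κ : Lˣ) (hκ : (κ : L) = x ^ 2 - algebraMap k L D * y ^ 2) :
    ∃ w w' : ATI ρ σ ι α a b c q, w ∈ stab0I ρ σ ι α a b c q ∧ w' ∈ stabI ρ σ ι α q h ∧
      IsKapI ρ w.1 κ ∧ IsKapI ρ w'.1 κ ∧ IsNI ρ σ ι α a b c q (w * w'⁻¹) := by
  have := H.numberField
  obtain ⟨hD0, ⟨w0, hw0, hw0'⟩, hwq, ⟨w1, hw1, hw1'⟩, hsgn⟩ := hD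
  obtain ⟨-, ⟨w2, hw2, hw2'⟩, -, -, -⟩ := hD'
  have hns' : ∀ r : k, D ≠ a * r ^ 2 := by
    rintro r rfl
    apply hns (α * algebraMap k E r)
    rw [map_mul, map_pow, ← H.α2]
    ring
  obtain ⟨E1, O, _, _, _, _, _, _, _, _, _, _, _, _, _, _, _, _, ρ1, σ1, ι1, α1, ρ', σ', τ', ι',
    a1, b1, c1, q1, u, φ, X⟩ := exists_kcxI H hD0 hsgn hns hw0 hw0' hw1 hw1' hwq
  -- the singular elements near the standard one
  have h1 := hnear E1 ρ1 σ1 ι1 α1 a1 b1 c1 q1 X.H1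
  have h2 : ∀ᶠ v in nh {W : E1 →+* ℂ | W.comp (algebraMap k E1) ∈ Part.Sk k a}
      (ep α1 * gl : OctL E1 a1 b1 c1), Pt ρ1 v → (∃ μ : E1, Im ι1 v = μ • v) →
      ∃ y ∈ stabsI ρ1 σ1 ι1 α1 a1 b1 c1 q1, ∃ t : E1, t ≠ 0 ∧
          y.1 (tri ρ1 v (Jm ρ1 σ1 α1 q1 v)) = t • ep α1 := by
    rw [oup_gl] at h1
    exact h1.filter_mono (D4X.Part.nh_mono (Part.Bd_sub X.H1 (by rw [X.ha1]; exact hsgn)) _)
  have hne : (Part.S k a).Nonempty := by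
    obtain ⟨τ, hτ, -⟩ := H.hcp
    exact ⟨τ, hτ⟩
  obtain ⟨ε, hε, h3⟩ := X.sing_nearI H hns hw0 hw0' (Part.Sk_finite a)
    (by
      obtain ⟨τ, hτ⟩ := hne
      exact ⟨_, τ, hτ, rfl⟩) h2
  -- the triple near the standard one
  obtain ⟨f, c'', l'', h'', w'', hf, hw, hww, hnear⟩ := D4X.H370.exists_trip_near H.hdiv
    (Part.S k a) (fun τ hτ => ⟨hτ, hX τ hτ⟩) hne h hw0 hw0' hns' hw2 hw2' hε
  obtain ⟨v, hv1, hv2, hv3, hvt⟩ := h3 h'' hw hww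
    (by
      rintro τ ⟨τ', hτ', rfl⟩
      rw [D4X.H370.on_ofReal]
      exact (hnear τ' hτ').1.le)
    (by
      rintro τ ⟨τ', hτ', rfl⟩
      rw [D4X.H370.on_ofReal]
      exact (hnear τ' hτ').2.le)
  obtain ⟨y', hy', t, ht, hyt⟩ := hv1 hv2 ⟨-1, by rw [neg_one_smul]; exact hv3⟩
  obtain ⟨b2, c2, j1, l1, h4, hy1⟩ := X.z5_yI h'' hvt ht hyt
  -- the parts
  exact Part.move H h h'' (H370.extE_mem_RsI H hf) (D4X.H370.tQ_conj_mul hf h h'')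
    (Part.core1 X (fun h z hz hk => Part.stab_NF X.H1 (X.ho ho) h hz (κ := 1)
        (by rw [← hk]; exact isKapI_kapI _) (Subgroup.one_mem _)) h'' hy' hy1 κ hκ)

end Vale.Agent.P011.D4Y
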